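import Vale.Agent.P354CB.Ez

/-!
A convex time function which touches the complement of an open set.
-/

open scoped ContDiff
open Set Filter Topology Metric

namespace Vale.Agent.P354CB45

open Vale.Agent.P354n Vale.Agent.P354CB
open Vale.Agent.P354XJ (Tm)

/-- The Euclidean product on R4. -/
def ip (u v : R4) : ℝ := u.1 * v.1 + u.2.1 * v.2.1 + u.2.2.1 * v.2.2.1 + u.2.2.2 * v.2.2.2

lemma ab (u : R4) : |u.1| ≤ ‖u‖ ∧ |u.2.1| ≤ ‖u‖ ∧ |u.2.2.1| ≤ ‖u‖ ∧ |u.2.2.2| ≤ ‖u‖ :=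
  ⟨norm_fst_le u, (norm_fst_le u.2).trans (norm_snd_le u),
    (norm_fst_le u.2.2).trans ((norm_snd_le u.2).trans (norm_snd_le u)),
    (norm_snd_le u.2.2).trans ((norm_snd_le u.2).trans (norm_snd_le u))⟩

lemma ip_le (u v : R4) : ip u v ≤ 4 * (‖u‖ * ‖v‖) := by
  have k : ∀ a b : ℝ, |a| ≤ ‖u‖ → |b| ≤ ‖v‖ → a * b ≤ ‖u‖ * ‖v‖ := fun a b h1 h2 =>
    (le_abs_self _).trans ((abs_mul a b).trans_le (mul_le_mul h1 h2 (abs_nonneg _) (norm_nonneg _)))
  obtain ⟨a1, a2, a3, a4⟩ := ab u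
  obtain ⟨b1, b2, b3, b4⟩ := ab v
  unfold ip
  linarith [k _ _ a1 b1, k _ _ a2 b2, k _ _ a3 b3, k _ _ a4 b4]

lemma sq_le_ip (u : R4) : ‖u‖ * ‖u‖ ≤ ip u u := by
  have k : ‖u‖ ≤ √(ip u u) := by
    unfold ip
    refine norm_prod_le_iff.2 ⟨?_, norm_prod_le_iff.2 ⟨?_, norm_prod_le_iff.2 ⟨?_, ?_⟩⟩⟩ <;>
    · refine Real.abs_le_sqrt ?_
      nlinarith [mul_self_nonneg u.1, mul_self_nonneg u.2.1, mul_self_nonneg u.2.2.1,
        mul_self_nonneg u.2.2.2]
  have k0 : 0 ≤ ip u u := by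
    unfold ip
    nlinarith [mul_self_nonneg u.1, mul_self_nonneg u.2.1, mul_self_nonneg u.2.2.1,
      mul_self_nonneg u.2.2.2]
  exact (mul_self_le_mul_self (norm_nonneg _) k).trans_eq (Real.mul_self_sqrt k0)

lemma ip_line (u a : R4) (s : ℝ) :
    ip (u + s • a) (u + s • a) = ip u u + s * (2 * ip u a) + s * s * ip a a := by
  simp only [ip, Prod.fst_add, Prod.snd_add, Prod.smul_fst, Prod.smul_snd, smul_eq_mul]
  ring

lemma ip_add (u a b : R4) (s : ℝ) : ip u (a + s • b) = ip u a + s * ip u b := by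
  simp only [ip, Prod.fst_add, Prod.snd_add, Prod.smul_fst, Prod.smul_snd, smul_eq_mul]
  ring

lemma ip_smooth (w : R4) : ContDiff ℝ ∞ fun x : R4 => ip (x - w) (x - w) := by
  unfold ip
  fun_prop

lemma ip_cvx (w : R4) : ConvexOn ℝ univ fun x : R4 => ip (x - w) (x - w) := by
  refine ⟨convex_univ, fun x _ y _ a b ha hb h => ?_⟩
  obtain rfl : b = 1 - a := by linarith
  have k : ∀ s t v : ℝ, (a * s + (1 - a) * t - v) * (a * s + (1 - a) * t - v) ≤
      a * ((s - v) * (s - v)) + (1 - a) * ((t - v) * (t - v)) := fun s t v => by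
    nlinarith [mul_nonneg (mul_nonneg ha hb) (mul_self_nonneg (s - t))]
  simp only [ip, Prod.fst_add, Prod.snd_add, Prod.smul_fst, Prod.smul_snd, smul_eq_mul,
    Prod.fst_sub, Prod.snd_sub]
  linarith [k x.1 y.1 w.1, k x.2.1 y.2.1 w.2.1, k x.2.2.1 y.2.2.1 w.2.2.1,
    k x.2.2.2 y.2.2.2 w.2.2.2]

/-- The derivative of the test function. -/
lemma der (θ : R4 →L[ℝ] ℝ) (m : ℝ) (w z a : R4) :
    fderiv ℝ (fun x => θ x + m * ip (x - w) (x - w)) z a = θ a + m * (2 * ip (z - w) a) := by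
  have h : ContDiff ℝ ∞ fun x => θ x + m * ip (x - w) (x - w) :=
    θ.contDiff.add (contDiff_const.mul (ip_smooth w))
  have l : HasDerivAt (fun s : ℝ => z + s • a) a 0 := by
    simpa using ((hasDerivAt_id (0 : ℝ)).smul_const a).const_add z
  have h1 := HasFDerivAt.comp_hasDerivAt_of_eq (0 : ℝ)
    ((h.differentiable (by simp)) z).hasFDerivAt l (by simp)
  refine h1.unique ?_
  have e : ((fun x => θ x + m * ip (x - w) (x - w)) ∘ fun s : ℝ => z + s • a) = fun s : ℝ =>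
      (θ z + m * ip (z - w) (z - w)) + s * (θ a + m * (2 * ip (z - w) a)) +
        s * s * (m * ip a a) := by
    funext s
    simp only [Function.comp, show z + s • a - w = z - w + s • a by abel, ip_line, map_add,
      map_smul, smul_eq_mul]
    ring
  rw [e]
  exact ((((hasDerivAt_id' (0 : ℝ)).mul_const (θ a + m * (2 * ip (z - w) a))).const_add
    (θ z + m * ip (z - w) (z - w))).fun_add (((hasDerivAt_id' (0 : ℝ)).fun_mul
      (hasDerivAt_id' (0 : ℝ))).mul_const (m * ip a a))).congr_deriv (by ring)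

/-- The pair of nearest points. -/
lemma pair (θ : R4 →L[ℝ] ℝ) {p : R4} {ρ : ℝ} (h0 : 0 < ρ) {P W : Set R4} (hP : IsClosed P)
    (hW : IsOpen W) (p1 : p ∈ P) (p2 : p ∉ W)
    (k : ∀ z ∈ P, z ∈ closedBall p ρ → z ≠ p → z ∈ W) :
    ∃ m > 0, ∃ z ∈ ball p ρ, ∃ w ∈ ball p ρ, z ∉ W ∧ w ∈ P ∧
      m * ip (z - w) (z - w) ≤ ‖θ‖ * ρ ∧
      (∀ x ∈ ball p ρ, x ∉ W → θ z + m * ip (z - w) (z - w) ≤ θ x + m * ip (x - w) (x - w)) ∧
      ∀ y ∈ ball p ρ, y ∈ P → ip (z - w) (z - w) ≤ ip (z - y) (z - y) := by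
  have cK := isCompact_closedBall p ρ
  have cA : IsCompact ((closedBall p ρ ∩ Wᶜ) ×ˢ (closedBall p ρ ∩ P)) :=
    (cK.inter_right hW.isClosed_compl).prod (cK.inter_right hP)
  have cq : Continuous fun q : R4 × R4 => ip (q.1 - q.2) (q.1 - q.2) := by
    unfold ip
    fun_prop
  obtain ⟨δ, δ0, hδ⟩ := (cA.inter_right (isOpen_ball.prod isOpen_ball :
      IsOpen (ball p ρ ×ˢ ball p ρ)).isClosed_compl).exists_forall_le' cq.continuousOn (a := 0)
    (fun q hq => by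
      refine lt_of_lt_of_le ?_ (sq_le_ip _)
      refine mul_self_pos.2 (norm_ne_zero_iff.2 (sub_ne_zero.2 fun e => hq.2 ?_))
      have e2 : q.2 = p := by
        by_contra n
        exact hq.1.1.2 (e ▸ k _ hq.1.2.2 hq.1.2.1 n)
      exact ⟨by rw [e, e2]; exact mem_ball_self h0, by rw [e2]; exact mem_ball_self h0⟩)
  set m := (‖θ‖ * ρ + 1) / δ with hm
  have m0 : 0 < m := by positivity
  have pp : (p, p) ∈ (closedBall p ρ ∩ Wᶜ) ×ˢ (closedBall p ρ ∩ P) :=
    ⟨⟨mem_closedBall_self h0.le, p2⟩, mem_closedBall_self h0.le, p1⟩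
  obtain ⟨⟨z, w⟩, q1, q2⟩ := cA.exists_isMinOn ⟨_, pp⟩
    (f := fun q => θ q.1 + m * ip (q.1 - q.2) (q.1 - q.2))
    ((θ.continuous.comp continuous_fst).add (continuous_const.mul cq)).continuousOn
  have b1 : m * ip (z - w) (z - w) ≤ ‖θ‖ * ρ := by
    have a1 : θ z + m * ip (z - w) (z - w) ≤ θ p + m * ip (p - p) (p - p) := q2 pp
    have a2 : θ (p - z) ≤ ‖θ‖ * ρ := (le_abs_self _).trans ((θ.le_opNorm _).trans
      (mul_le_mul_of_nonneg_left (mem_closedBall_iff_norm'.1 q1.1.1) (norm_nonneg _)))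
    rw [map_sub] at a2
    simp only [sub_self, ip, Prod.fst_zero, Prod.snd_zero, mul_zero, add_zero] at a1
    unfold ip
    linarith
  have b2 : (z, w) ∈ ball p ρ ×ˢ ball p ρ := by
    by_contra n
    have a1 := mul_le_mul_of_nonneg_left (hδ _ ⟨q1, n⟩) m0.le
    rw [hm, div_mul_cancel₀ _ δ0.ne', ← hm] at a1
    linarith
  refine ⟨m, m0, z, b2.1, w, b2.2, q1.1.2, q1.2.2, b1, fun x x1 x2 =>
    q2 (a := (x, w)) ⟨⟨ball_subset_closedBall x1, x2⟩, q1.2⟩, fun y y1 y2 => ?_⟩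
  have a1 : θ z + m * ip (z - w) (z - w) ≤ θ z + m * ip (z - y) (z - y) :=
    q2 (a := (z, y)) ⟨q1.1, ball_subset_closedBall y1, y2⟩
  exact le_of_mul_le_mul_left (by linarith) m0

theorem kt : KT := by
  intro M hM e p r L c T nb P W hP hW p1 p2 k1 k2
  have B : ∀ z ∈ closedBall p r, P354.Bilin (M.g e z) := fun z hz => hM.sp.up.bilin e (nb.sub hz)
  have pr := mem_closedBall_self (x := p) nb.r0.le
  have c0 := nb.c0
  have L0 := nb.L0
  obtain ⟨θ, hθ⟩ : ∃ θ : R4 →L[ℝ] ℝ, ∀ a, θ a = -M.g e p a T :=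
    ⟨LinearMap.toContinuousLinearMap (IsLinearMap.mk' (fun a => -M.g e p a T)
      ⟨fun a b => by rw [(B p pr).add_left, neg_add], fun s a => by
        rw [(B p pr).smul_left, smul_eq_mul, mul_neg]⟩), fun _ => rfl⟩
  set D := 8 * (L + 1) * ‖T‖ * ‖θ‖ with hD
  have D0 : 0 ≤ D := by positivity
  set ρ := min r (c * c / (D + 1)) with hρ
  have ρ0 : 0 < ρ := lt_min nb.r0 (by positivity)
  have ρ1 : D * ρ < c * c := by
    have a1 : ρ * (D + 1) ≤ c * c := (le_div_iff₀ (by positivity)).1 (min_le_right _ _)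
    nlinarith
  have s1 : ball p ρ ⊆ ball p r := ball_subset_ball (min_le_left _ _)
  obtain ⟨m, m0, z, z1, w, w1, z2, w2, b1, b2, b3⟩ := pair θ ρ0 hP hW p1 p2
    fun z a b => k1 z a (closedBall_subset_closedBall (min_le_left _ _) b)
  have zr := ball_subset_closedBall (s1 z1)
  have wr := ball_subset_closedBall (s1 w1)
  have sm : ContDiff ℝ ∞ fun x => θ x + m * ip (x - w) (x - w) :=
    θ.contDiff.add (contDiff_const.mul (ip_smooth w))
  refine ⟨z, s1 z1, z2, _, sm, (θ.toLinearMap.convexOn convex_univ).add ((ip_cvx w).smul m0.le),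
    ⟨sm.contDiffAt.of_le (by simp), fun a a0 a1 a2 => ?_⟩, ?_⟩
  swap
  · filter_upwards [isOpen_ball.mem_nhds z1] with x hx l
    by_contra n
    exact absurd (b2 x hx n) (not_le.2 l)
  have an := norm_pos_iff.2 a0
  have t1 : c * ‖a‖ ≤ θ a := hθ a ▸ nb.cone z zr p pr a a1 a2
  rw [der]
  rcases eq_or_ne z w with rfl | zw
  · simp only [sub_self, ip, Prod.fst_zero, Prod.snd_zero, zero_mul, add_zero, mul_zero]
    exact (mul_pos c0 an).trans_le t1
  have n0 := norm_pos_iff.2 (sub_ne_zero.2 zw)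
  set n := ‖z - w‖ with hn
  set s := (L + 1) * n / c * ‖a‖ with hs
  have s0 : 0 < s := by positivity
  have Bw := B w wr
  have sy : M.g e w T a = M.g e w a T := hM.sp.up.symm e (nb.sub wr) _ _
  have t2 := nb.cone z zr w wr a a1 a2
  have t3 := (nb.tl w wr).1
  have t4 : M.g e w a a ≤ L * n * ‖a‖ * ‖a‖ := by
    have := nb.lip z zr w wr a a
    linarith [neg_abs_le (M.g e z a a - M.g e w a a)]
  have t5 : s * (c * ‖a‖) = (L + 1) * n * ‖a‖ * ‖a‖ := by
    rw [hs]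
    field_simp
  have u1 : M.g e w (a + s • T) (a + s • T) < 0 := by
    simp only [Bw.add_left, Bw.add_right, Bw.smul_left, Bw.smul_right, sy]
    nlinarith [mul_le_mul_of_nonneg_left t2 s0.le, mul_pos s0 (mul_pos s0 (neg_pos.2 t3)),
      mul_pos (mul_pos n0 an) an, mul_nonneg L0 (mul_pos (mul_pos n0 an) an).le]
  have u2 : M.g e w (a + s • T) T < 0 := by
    rw [Bw.add_left, Bw.smul_left]
    nlinarith [mul_pos s0 (neg_pos.2 t3), mul_pos c0 an]
  have u3 := P354YC.cone (hM.lor e) (nb.sub wr) t3 u1 u2 (hM.sp.timelike e w (nb.sub wr)).le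
    ((hM.sp.up.symm e (nb.sub wr) _ _).trans_lt (nb.tl w wr).2)
  have u4 : 0 ≤ 2 * ip (z - w) (a + s • T) := by
    have l : Tendsto (fun t : ℝ => w - t • (a + s • T)) (𝓝[>] 0) (𝓝 w) :=
      Tendsto.mono_left (Continuous.tendsto' (by fun_prop) _ _ (by simp)) nhdsWithin_le_nhds
    have l2 : Tendsto (fun t : ℝ => 2 * ip (z - w) (a + s • T) + t * ip (a + s • T) (a + s • T))
        (𝓝[>] 0) (𝓝 (2 * ip (z - w) (a + s • T))) :=
      Tendsto.mono_left (Continuous.tendsto' (by fun_prop) _ _ (by simp)) nhdsWithin_le_nhds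
    refine ge_of_tendsto l2 ?_
    filter_upwards [k2 w w2 (s1 w1) _ u1 u3, l.eventually (isOpen_ball.mem_nhds w1),
      self_mem_nhdsWithin] with t h1 h2 h3
    have h4 := b3 _ h2 h1
    rw [show z - (w - t • (a + s • T)) = z - w + t • (a + s • T) by abel, ip_line] at h4
    exact nonneg_of_mul_nonneg_right (a := t) (by nlinarith) h3
  rw [ip_add] at u4
  have v1 := ip_le (z - w) T
  have v2 : m * (n * n) ≤ ‖θ‖ * ρ := (mul_le_mul_of_nonneg_left (sq_le_ip _) m0.le).trans b1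
  have v3 : m * (s * (4 * (n * ‖T‖))) * 2 < c * ‖a‖ := by
    have e1 : m * (s * (4 * (n * ‖T‖))) * 2 * c = 8 * (L + 1) * ‖T‖ * (m * (n * n)) * ‖a‖ := by
      rw [hs]
      field_simp
      ring
    refine lt_of_mul_lt_mul_right ?_ c0.le
    rw [e1]
    have e2 : 8 * (L + 1) * ‖T‖ * (m * (n * n)) ≤ D * ρ := by
      rw [hD, mul_assoc _ ‖θ‖]
      exact mul_le_mul_of_nonneg_left v2 (by positivity)
    nlinarith [mul_lt_mul_of_pos_right (e2.trans_lt ρ1) an]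
  nlinarith [mul_le_mul_of_nonneg_left (mul_le_mul_of_nonneg_left v1 s0.le) m0.le,
    mul_nonneg m0.le u4]

end Vale.Agent.P354CB45
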