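import Vale.Agent.P354CB.Ez

/-!
A spacelike slice which touches a level of a time function from below.
-/

open scoped ContDiff
open Set Filter Topology Metric

namespace Vale.Agent.P354CB45

open Vale.Agent.P354n Vale.Agent.P354CB
open Vale.Agent.P354I (X)
open Vale.Agent.P354XJ (Tm)

/-- A parametrisation of the kernel of a linear form. -/
lemma ex_ker (l : R4 →L[ℝ] ℝ) {T : R4} (h : 0 < l T) :
    ∃ A : X →L[ℝ] R4, ∀ u, l (A u) = 0 ∧ (u ≠ 0 → A u ≠ 0) := by
  have r : LinearMap.range l.toLinearMap = ⊤ := LinearMap.range_eq_top.2 fun s =>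
    ⟨(s / l T) • T, by simp [h.ne']⟩
  have k := l.toLinearMap.finrank_range_add_finrank_ker
  rw [r] at k
  have k2 : Module.finrank ℝ X = Module.finrank ℝ (LinearMap.ker l.toLinearMap) := by
    simp only [finrank_top, Module.finrank_self, Module.finrank_prod] at k
    simp only [finrank_euclideanSpace, Fintype.card_fin]
    omega
  let E := LinearEquiv.ofFinrankEq X _ k2
  exact ⟨LinearMap.toContinuousLinearMap ((LinearMap.ker l.toLinearMap).subtype ∘ₗ E.toLinearMap),
    fun u => ⟨(E u).2, fun u0 e => u0 (E.map_eq_zero_iff.1 (Subtype.ext e))⟩⟩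

/-- The second order bound. -/
lemma taylor {f : R4 → ℝ} (hf : ContDiff ℝ ∞ f) (z : R4) : ∃ K ≥ 0, ∀ᶠ x in 𝓝 z,
    f x - f z - fderiv ℝ f z (x - z) ≤ K * ‖x - z‖ * ‖x - z‖ := by
  obtain ⟨K, t, ht, hK⟩ := ((hf.fderiv_right (m := 1) (by norm_cast)).contDiffAt
    (x := z)).exists_lipschitzOnWith
  obtain ⟨ε, ε0, hε⟩ := Metric.nhds_basis_closedBall.mem_iff.1 ht
  refine ⟨K, K.2, ?_⟩
  filter_upwards [closedBall_mem_nhds z ε0] with x hx
  refine (le_abs_self _).trans ((convex_closedBall z ‖x - z‖).norm_image_sub_le_of_norm_fderiv_le'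
    (fun w _ => hf.differentiable (by simp) w) (fun w hw => ?_)
    (mem_closedBall_self (norm_nonneg _)) (mem_closedBall_iff_norm.2 le_rfl))
  have h1 := mem_closedBall_iff_norm.1 hw
  exact (hK.norm_sub_le (hε (mem_closedBall_iff_norm.2 (h1.trans (mem_closedBall_iff_norm.1 hx))))
    (hε (mem_closedBall_self ε0.le))).trans (mul_le_mul_of_nonneg_left h1 K.2)

theorem kt2 : KT2 := by
  intro M hM e z hz f hf ht y
  have B : P354.Bilin (M.g e z) := hM.sp.up.bilin e hz
  have tl := hM.sp.timelike e z hz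
  set T := M.X e z
  set l := fderiv ℝ f z with hl
  have T0 : T ≠ 0 := fun k => by
    have := B.smul_left 0 0 T
    rw [zero_smul, zero_mul, ← k] at this
    exact tl.ne this
  have lT : 0 < l T := ht.2 T T0 tl.le tl.le
  obtain ⟨A, hA⟩ := ex_ker l lT
  obtain ⟨K, K0, hK⟩ := taylor hf z
  set m := (K * (‖A‖ + 1) * (‖A‖ + 1) + 1) / l T with hm
  have m0 : 0 < m := by positivity
  have sm : ContDiff ℝ ∞ fun x : X => z + A (x - y) - (m * ‖x - y‖ ^ 2) • T :=
    (contDiff_const.add (A.contDiff.comp (contDiff_id.sub contDiff_const))).sub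
      ((contDiff_const.mul ((contDiff_norm_sq ℝ).comp (contDiff_id.sub contDiff_const))).smul
        contDiff_const)
  have d : HasFDerivAt (fun x : X => z + A (x - y) - (m * ‖x - y‖ ^ 2) • T) A y := by
    have d1 := (hasFDerivAt_id (𝕜 := ℝ) y).sub_const y
    have d2 := ((A.hasFDerivAt.comp y d1).const_add z).fun_sub
      ((d1.norm_sq.const_mul m).smul_const T)
    exact d2.congr_fderiv (by ext u <;> simp)
  refine ⟨_, sm, by simp, fun u u0 => ?_, ?_⟩
  · rw [d.fderiv]
    by_contra! n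
    rcases le_total (M.g e z (A u) T) 0 with k | k
    · exact (ht.2 _ ((hA u).2 u0) n k).ne' (hA u).1
    · have e1 : -A u = (-1 : ℝ) • A u := by simp
      refine (ht.2 (-A u) (neg_ne_zero.2 ((hA u).2 u0)) ?_ ?_).ne' (by rw [map_neg, (hA u).1, neg_zero])
      · rw [e1, B.smul_left, B.smul_right]
        linarith
      · rw [e1, B.smul_left]
        linarith
  · have c1 : Tendsto (fun x : X => z + A (x - y) - (m * ‖x - y‖ ^ 2) • T) (𝓝 y) (𝓝 z) :=
      sm.continuous.tendsto' _ _ (by simp)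
    have c2 : Tendsto (fun x : X => m * ‖x - y‖ * ‖T‖) (𝓝 y) (𝓝 0) :=
      Continuous.tendsto' (by fun_prop) _ _ (by simp)
    filter_upwards [nhdsWithin_le_nhds (c1.eventually hK),
      nhdsWithin_le_nhds (c2.eventually (gt_mem_nhds one_pos)), self_mem_nhdsWithin] with x h1 h2 h3
    have n0 := norm_pos_iff.2 (sub_ne_zero.2 h3)
    set n := ‖x - y‖ with hn
    rw [show z + A (x - y) - (m * n ^ 2) • T - z = A (x - y) - (m * n ^ 2) • T by abel] at h1
    have a1 : ‖A (x - y) - (m * n ^ 2) • T‖ ≤ (‖A‖ + 1) * n := by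
      refine (norm_sub_le _ _).trans ?_
      rw [norm_smul, Real.norm_of_nonneg (by positivity)]
      nlinarith [A.le_opNorm (x - y), mul_lt_mul_of_pos_right h2 n0]
    have a2 : l (A (x - y) - (m * n ^ 2) • T) = -((K * (‖A‖ + 1) * (‖A‖ + 1) + 1) * n ^ 2) := by
      rw [map_sub, (hA _).1, map_smul, smul_eq_mul, hm]
      field_simp
      ring
    rw [← hl, a2] at h1
    nlinarith [mul_le_mul_of_nonneg_left (mul_self_le_mul_self (norm_nonneg _) a1) K0,
      mul_pos n0 n0]

end Vale.Agent.P354CB45
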